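import Vale.Agent.P284.H213.G.S
import Vale.Agent.P284.H213.K.Asm

/-!
# P284 (helper213), TARGET G: group assembly
-/

open scoped Manifold ContDiff Topology Pointwise ComplexConjugate ComplexOrder
open Filter Set Metric MeasureTheory

noncomputable section

namespace Vale.Agent.P284.H213.G

open Vale.Agent.P272.K Vale.Agent.P284.H248 Vale.Agent.P284.H894 Vale.Agent.P284.H894.G
  Vale.Agent.P284.H894.V Vale.Agent.P284.H894.W Vale.Agent.P284.H894.F Vale.Agent.P284.H998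
  Vale.Agent.P284.H213.Grp Vale.Agent.P284.H213.Q Vale.Agent.P284.H119.Kaz
  Vale.Agent.P284.H409.A Vale.Agent.P284.H913.Tube Vale.Agent.P284.H10 Vale.Agent.P284.H213.T3
  Vale.Agent.P284.H213.K

section
variable {Γ Q : Type} [Group Γ] [Group Q] (f : Γ →* Q) (hf : Function.Surjective f)
  (G K : Subgroup Γ) (hG : G.FiniteIndex) {N : ℕ} (c : Γ → Cm N)
  (hadd : ∀ g ∈ G, ∀ h ∈ G, c (g * h) = c g + c h) (hmem : ∀ g, g ∈ K ↔ g ∈ G ∧ c g = 0)
  (hdisc : ∀ R : ℝ, {v | (∃ g ∈ G, c g = v) ∧ ‖v‖ ≤ R}.Finite)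
  (hspan : Submodule.span ℝ (c '' (G : Set Γ)) = ⊤)

include hf hG hadd hmem hdisc hspan in
theorem t3C0_of_image (hfg : Group.FG (K.map f)) (h : Kazhdan (K.map f)) : T3C0 Q (2 * N) := by
  obtain ⟨G₁, m, χ, hfi, hm, hχ, -, hle, h2⟩ :=
    exists_char_image f hf G K hG c hadd hmem hdisc hspan
  have hker : χ.ker = (K.map f).subgroupOf G₁ := by
    ext x
    exact h2 x
  let e' : χ.ker ≃* K.map f :=
    (MulEquiv.subgroupCongr hker).trans (Subgroup.subgroupOfEquivOfLe hle)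
  exact ⟨G₁, m, χ, hfi, hm, hχ,
    Group.fg_of_surjective (f := e'.symm.toMonoidHom) e'.symm.surjective, h.of_equiv e'.symm⟩

include hf hG hadd hmem hdisc hspan in
/-- as `t3N_of_image`, without the third alternative -/
theorem t3N0_of_image (hfg : Group.FG (K.map f))
    (h : Finite (K.map f) ∨
      ∃ (H : Type) (_ : Group H) (θ : G →* H), (∀ k : G, (k : Γ) ∈ K → f k = 1 → θ k = 1) ∧
        Infinite ((K.subgroupOf G).map θ) ∧ Kazhdan ((K.subgroupOf G).map θ)) :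
    T3N0 Q (2 * N) := by
  obtain ⟨G₁, m, χ, hfi, hm, hχ, hG₁, hle, h2⟩ :=
    exists_char_image f hf G K hG c hadd hmem hdisc hspan
  have hKG : K ≤ G := fun g hg => ((hmem g).1 hg).1
  have hker : χ.ker = (K.map f).subgroupOf G₁ := by
    ext x
    exact h2 x
  let e' : χ.ker ≃* K.map f :=
    (MulEquiv.subgroupCongr hker).trans (Subgroup.subgroupOfEquivOfLe hle)
  refine ⟨G₁, m, χ, hfi, hm, hχ, ?_, ?_⟩
  · exact Group.fg_of_surjective (f := e'.symm.toMonoidHom) e'.symm.surjective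
  · rcases h with h | ⟨H, _, θ, hθ, hi, hkz⟩
    · exact Or.inl (Finite.of_equiv _ e'.symm.toEquiv)
    · refine Or.inr ?_
      have hKn : (K.subgroupOf G).Normal := by
        refine ⟨fun x hx g => ?_⟩
        rw [Subgroup.mem_subgroupOf] at hx ⊢
        have hx0 := ((hmem _).1 hx).2
        refine (hmem _).2 ⟨(g * x * g⁻¹).2, ?_⟩
        show c ((g : Γ) * (x : Γ) * (g : Γ)⁻¹) = 0
        have h1 : c 1 = 0 := by
          have := hadd 1 G.one_mem 1 G.one_mem
          rw [one_mul] at this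
          exact (left_eq_add.1 this)
        have h3 := hadd (g : Γ) g.2 ((g : Γ)⁻¹) (G.inv_mem g.2)
        rw [mul_inv_cancel, h1] at h3
        rw [hadd _ (G.mul_mem g.2 x.2) _ (G.inv_mem g.2), hadd _ g.2 _ x.2, hx0, add_zero, ← h3]
      let N₀ : Subgroup G := θ.ker ⊓ K.subgroupOf G
      have hN₀ : N₀.Normal := inferInstance
      let N₁ : Subgroup G₁ := (N₀.map (f.comp G.subtype)).subgroupOf G₁
      have hN₁ : N₁.Normal := by
        refine ⟨fun x hx g => ?_⟩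
        rw [Subgroup.mem_subgroupOf] at hx ⊢
        obtain ⟨m, hm, hmx⟩ := hx
        obtain ⟨g', hg', hgg⟩ := hG₁ g.2
        refine ⟨⟨g', hg'⟩ * m * ⟨g', hg'⟩⁻¹, hN₀.conj_mem m hm _, ?_⟩
        have h4 : f (m : Γ) = (x : Q) := hmx
        show f (g' * m * g'⁻¹) = (g : Q) * (x : Q) * (g : Q)⁻¹
        rw [map_mul, map_mul, map_inv, hgg, h4]
      -- the two homomorphisms
      let φ : K.subgroupOf G →* G₁ ⧸ N₁ := (QuotientGroup.mk' N₁).comp
        { toFun := fun k => ⟨f k, hle ⟨k, k.2, rfl⟩⟩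
          map_one' := Subtype.ext (map_one f)
          map_mul' := fun a b => Subtype.ext (map_mul f _ _) }
      let ψ : K.subgroupOf G →* H := θ.comp (K.subgroupOf G).subtype
      have hφψ : ∀ k, φ k = 1 ↔ ψ k = 1 := by
        intro k
        have h3 : φ k = 1 ↔ f (k : G) ∈ N₀.map (f.comp G.subtype) := by
          show ((⟨f k, hle ⟨k, k.2, rfl⟩⟩ : G₁) : G₁ ⧸ N₁) = 1 ↔ _
          rw [QuotientGroup.eq_one_iff, Subgroup.mem_subgroupOf]
        rw [h3]
        constructor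
        · rintro ⟨m, hm, hmk⟩
          have hmk' : f (m : Γ) = f (k : G) := hmk
          have h4 : θ (k * m⁻¹ : G) = 1 := by
            refine hθ _ ?_ ?_
            · exact (K.subgroupOf G).mul_mem k.2 ((K.subgroupOf G).inv_mem hm.2)
            · show f ((k : G) * (m : Γ)⁻¹) = 1
              rw [map_mul, map_inv, hmk', mul_inv_cancel]
          have h5 : θ m = 1 := hm.1
          rw [map_mul, map_inv, h5, inv_one, mul_one] at h4
          exact h4
        · intro hk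
          exact ⟨k, ⟨hk, k.2⟩, rfl⟩
      obtain ⟨e₂⟩ := range_equiv φ ψ hφψ
      have hφr : φ.range = χ.ker.map (QuotientGroup.mk' N₁) := by
        ext y
        constructor
        · rintro ⟨k, rfl⟩
          exact ⟨⟨f k, hle ⟨k, k.2, rfl⟩⟩, (h2 _).2 ⟨k, k.2, rfl⟩, rfl⟩
        · rintro ⟨x, hx, rfl⟩
          obtain ⟨k, hk, hkx⟩ := (h2 x).1 hx
          refine ⟨⟨⟨k, hKG hk⟩, hk⟩, ?_⟩
          show (QuotientGroup.mk' N₁) _ = (QuotientGroup.mk' N₁) x
          exact congrArg _ (Subtype.ext hkx)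
      have hψr : ψ.range = (K.subgroupOf G).map θ := by
        show (θ.comp (K.subgroupOf G).subtype).range = _
        rw [MonoidHom.range_comp, Subgroup.range_subtype]
      let e₃ : χ.ker.map (QuotientGroup.mk' N₁) ≃* (K.subgroupOf G).map θ :=
        (MulEquiv.subgroupCongr hφr.symm).trans (e₂.trans (MulEquiv.subgroupCongr hψr))
      refine ⟨N₁, hN₁, ?_, Infinite.of_injective e₃.symm e₃.symm.injective, hkz.of_equiv e₃.symm⟩
      intro x hx
      obtain ⟨m, hm, hmx⟩ := hx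
      exact (h2 x).2 ⟨m, hm.2, hmx⟩

end

theorem T3C0.mono {Q : Type} [Group Q] {r s : ℕ} (h : T3C0 Q r) (hrs : r ≤ s) : T3C0 Q s := by
  obtain ⟨G, m, χ, hG, hm, h⟩ := h
  exact ⟨G, m, χ, hG, hm.trans hrs, h⟩

theorem T3N0.mono {Q : Type} [Group Q] {r s : ℕ} (h : T3N0 Q r) (hrs : r ≤ s) : T3N0 Q s := by
  obtain ⟨G, m, χ, hG, hm, h⟩ := h
  exact ⟨G, m, χ, hG, hm.trans hrs, h⟩

/-- `NSRep` of the quotient of `G` by `K ⊓ ker f` gives `NSRep` of `Q` -/
theorem nsRep_of_quo {Γ Q : Type} [Group Γ] [Group Q] (f : Γ →* Q) (hf : Function.Surjective f)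
    (G : Subgroup Γ) (hG : G.FiniteIndex) (K M : Subgroup G) [M.Normal]
    (hK : ∀ a x : G, a * x * a⁻¹ * x⁻¹ ∈ K) (hM : M = K ⊓ (f.comp G.subtype).ker)
    (h : NSRep (G ⧸ M)) : NSRep Q := by
  have hH : (G.map f).FiniteIndex := by
    refine ⟨fun h0 => ?_⟩
    have h1 := Subgroup.index_map_dvd G hf
    rw [h0] at h1
    exact hG.index_ne_zero (zero_dvd_iff.1 h1)
  refine NSRep.of_finiteIndex (G.map f) hH ?_
  have hle : M ≤ (f.subgroupMap G).ker := by
    intro m hm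
    rw [hM] at hm
    exact Subtype.ext hm.2
  let φ : G ⧸ M →* G.map f := QuotientGroup.lift M (f.subgroupMap G) hle
  have hφ : ∀ g : G, φ g = f.subgroupMap G g := fun g => QuotientGroup.lift_mk' M hle g
  have hφs : Function.Surjective φ := by
    intro y
    obtain ⟨g, rfl⟩ := f.subgroupMap_surjective G y
    exact ⟨g, hφ g⟩
  refine NSRep.of_central φ hφs ?_ h
  intro a ha x
  obtain ⟨a, rfl⟩ := QuotientGroup.mk_surjective a
  obtain ⟨x, rfl⟩ := QuotientGroup.mk_surjective x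
  have h1 : a * x * a⁻¹ * x⁻¹ ∈ M := by
    rw [hM]
    refine ⟨hK a x, ?_⟩
    have h2 : f (a : Γ) = 1 := by
      rw [hφ] at ha
      exact congrArg Subtype.val ha
    show f ((a : Γ) * x * (a : Γ)⁻¹ * (x : Γ)⁻¹) = 1
    rw [map_mul, map_mul, map_mul, map_inv, map_inv, h2, one_mul, inv_one, mul_one,
      mul_inv_cancel]
  have h2 : ((a * x * a⁻¹ * x⁻¹ : G) : G ⧸ M) = 1 := (QuotientGroup.eq_one_iff _).2 h1
  have h3 : ((a * x : G) : G ⧸ M) = ((a * x * a⁻¹ * x⁻¹ : G) : G ⧸ M) * ((x * a : G) : G ⧸ M) := by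
    rw [← QuotientGroup.mk_mul]
    congr 1
    group
  rw [← QuotientGroup.mk_mul, ← QuotientGroup.mk_mul, h3, h2, one_mul]

/-- **Group assembly, strong form.** -/
theorem mainSCTGK_of {D : Cls} (hst : EtSt D) (hA : AlbUK D) (hM : MFK D) (hCo : CoreTGPK D) :
    MainSCK D PTG := by
  intro n X _ _ _ _ _ _ hD w hw E Γ _ _ _ _ p hp Q _ f hf
  obtain ⟨_, _, _, hfg, -⟩ := H639.V.v15Stmt n X w hw E Γ p hp
  obtain ⟨G, K, N, F, c, hAl, hreg⟩ := hA n X hD w hw E Γ p hp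
  obtain ⟨hgc, hKfgG, hNn⟩ := prep hst hM hD hw hp hAl hreg
  have hadd := alb_add hAl
  have hlat := latChar_of_alb hAl
  have hKG : K ≤ G := fun g hg => ((hAl.mem g).1 hg).1
  have hKmem : ∀ g : G, g ∈ K.subgroupOf G ↔ c g = 0 := fun g => by
    rw [Subgroup.mem_subgroupOf, hAl.mem]
    exact ⟨fun h => h.2, fun h => ⟨g.2, h⟩⟩
  have hmap : (K.subgroupOf G).map (f.comp G.subtype) = K.map f := by
    rw [← Subgroup.map_map, Subgroup.subgroupOf_map_subtype, inf_eq_left.2 hKG]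
  have hKffg : Group.FG (K.map f) := by
    rw [← hmap]
    exact Group.fg_of_surjective (f := (f.comp G.subtype).subgroupMap (K.subgroupOf G))
      ((f.comp G.subtype).subgroupMap_surjective (K.subgroupOf G))
  by_cases hns : NSRep Q
  · exact Or.inl hns
  by_cases hnk : Kazhdan (K.map f)
  · exact Or.inr ((t3C0_of_image f hf G K hAl.fi c hadd hAl.mem hAl.disc hAl.span hKffg hnk).mono
      (Nat.mul_le_mul_left 2 hNn))
  exfalso
  have hnvi : ¬ VirtIndicable (K.map f) := fun hv => end_of_reg hw hp hAl hreg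
    (grpAStmt Γ Q f hf hfg G K hAl.fi N c hadd hAl.mem hAl.disc hAl.span hKffg hv
      (uni_of_conn hw hp hAl hgc))
  obtain ⟨M, hMn, c₀, hMdef, hc₀, hlat₀, hK₀m, ⟨e⟩⟩ :=
    exists_quoK (f.comp G.subtype) hlat (K.subgroupOf G) hKmem
  have e' : (K.subgroupOf G).map (QuotientGroup.mk' M) ≃* K.map f :=
    e.trans (MulEquiv.subgroupCongr hmap)
  have hK₀fg : Group.FG ((K.subgroupOf G).map (QuotientGroup.mk' M)) :=
    Group.fg_of_surjective (f := e'.symm.toMonoidHom) e'.symm.surjective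
  have hK₀v : ¬ VirtIndicable ((K.subgroupOf G).map (QuotientGroup.mk' M)) :=
    fun h => hnvi (H465.V19.virtIndicable_of_equiv e' h)
  have hfr : FinRepIn (G ⧸ M) ((K.subgroupOf G).map (QuotientGroup.mk' M)) :=
    finRepIn_of hK₀fg hK₀v fun h => hns (nsRep_of_quo f hf G hAl.fi (K.subgroupOf G) M
      (fun a x => (hKmem _).2 (by
        have h1 := hlat.add (a * x * a⁻¹) x⁻¹
        rw [h1, hlat.conj, hlat.map_inv, add_neg_cancel])) hMdef h)
  refine descend hst hM hD hw hp hAl hreg M LinearMap.id Function.surjective_id c₀ hc₀ hlat₀ ?_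
  intro Y _ _ _ _ _ _ hDY w' hw' E' _ _ _ p' hp' F' hB' heq' hreg' hgc'
  exact hCo n Y hDY w' hw' E' (G ⧸ M) p' hp' N F' c₀ _ hB' heq' hreg' hgc' hlat₀ hK₀m
    hK₀fg hK₀v hfr (fun h => hnk (h.of_equiv e'))

/-- **Group assembly, normalised data.** -/
theorem mainSCNGK_of {D : Cls} (hst : EtSt D) (hA : AlbUK D) (hM : MFK D) (hCo : CoreTGK D) :
    MainSCK D PNG := by
  intro n X _ _ _ _ _ _ hD w hw E Γ _ _ _ _ p hp Q _ f hf
  obtain ⟨_, _, _, hfg, -⟩ := H639.V.v15Stmt n X w hw E Γ p hp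
  obtain ⟨G, K, N, F, c, hAl, hreg⟩ := hA n X hD w hw E Γ p hp
  obtain ⟨hgc, hKfgG, hNn⟩ := prep hst hM hD hw hp hAl hreg
  have hadd := alb_add hAl
  have hlat := latChar_of_alb hAl
  have hKG : K ≤ G := fun g hg => ((hAl.mem g).1 hg).1
  have hKmem : ∀ g : G, g ∈ K.subgroupOf G ↔ c g = 0 := fun g => by
    rw [Subgroup.mem_subgroupOf, hAl.mem]
    exact ⟨fun h => h.2, fun h => ⟨g.2, h⟩⟩
  have hmap : (K.subgroupOf G).map (f.comp G.subtype) = K.map f := by
    rw [← Subgroup.map_map, Subgroup.subgroupOf_map_subtype, inf_eq_left.2 hKG]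
  have hKffg : Group.FG (K.map f) := by
    rw [← hmap]
    exact Group.fg_of_surjective (f := (f.comp G.subtype).subgroupMap (K.subgroupOf G))
      ((f.comp G.subtype).subgroupMap_surjective (K.subgroupOf G))
  by_cases hns : NSRep Q
  · exact Or.inl hns
  refine Or.inr (T3N0.mono (r := 2 * N) ?_ (Nat.mul_le_mul_left 2 hNn))
  refine t3N0_of_image f hf G K hAl.fi c hadd hAl.mem hAl.disc hAl.span hKffg ?_
  by_contra hcase
  push Not at hcase
  obtain ⟨hinf, hnk⟩ := hcase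
  have hnvi : ¬ VirtIndicable (K.map f) := fun hv => end_of_reg hw hp hAl hreg
    (grpAStmt Γ Q f hf hfg G K hAl.fi N c hadd hAl.mem hAl.disc hAl.span hKffg hv
      (uni_of_conn hw hp hAl hgc))
  obtain ⟨M, hMn, c₀, hMdef, hc₀, hlat₀, hK₀m, ⟨e⟩⟩ :=
    exists_quoK (f.comp G.subtype) hlat (K.subgroupOf G) hKmem
  set K₀ : Subgroup (G ⧸ M) := (K.subgroupOf G).map (QuotientGroup.mk' M) with hK₀
  have e' : K₀ ≃* K.map f := e.trans (MulEquiv.subgroupCongr hmap)
  have hK₀fg : Group.FG K₀ :=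
    Group.fg_of_surjective (f := e'.symm.toMonoidHom) e'.symm.surjective
  have hK₀i : Infinite K₀ := Infinite.of_injective e'.symm e'.symm.injective
  have hK₀v : ¬ VirtIndicable K₀ := fun h => hnvi (H465.V19.virtIndicable_of_equiv e' h)
  obtain ⟨M₂, hM₂n, q, L, c₁, hL, hc₁, hN⟩ := normK (G ⧸ M) N c₀ hlat₀ K₀ hK₀m hK₀fg hK₀i hK₀v
  -- one quotient
  let θ : G →* (G ⧸ M) ⧸ M₂ := (QuotientGroup.mk' M₂).comp (QuotientGroup.mk' M)
  have hθ : Function.Surjective θ :=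
    (QuotientGroup.mk'_surjective M₂).comp (QuotientGroup.mk'_surjective M)
  have hKθ : (K.subgroupOf G).map θ = K₀.map (QuotientGroup.mk' M₂) := by
    rw [hK₀, Subgroup.map_map]
  have hnk' : ¬ Kazhdan (K₀.map (QuotientGroup.mk' M₂)) := by
    rw [← hKθ]
    refine hnk _ inferInstance θ (fun k hk hfk => ?_) ?_
    · have h1 : k ∈ M := by
        rw [hMdef]
        exact ⟨hk, hfk⟩
      have h2 : (k : G ⧸ M) = 1 := (QuotientGroup.eq_one_iff k).2 h1
      show ((k : G ⧸ M) : (G ⧸ M) ⧸ M₂) = 1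
      rw [h2]
      rfl
    · rw [hKθ]
      exact hN.inf
  let e₂ : G ⧸ θ.ker ≃* (G ⧸ M) ⧸ M₂ := QuotientGroup.quotientKerEquivOfSurjective θ hθ
  have hN' := hN.congr e₂
  let e₃ : (K₀.map (QuotientGroup.mk' M₂)).comap e₂.toMonoidHom ≃*
      K₀.map (QuotientGroup.mk' M₂) :=
    MulEquiv.ofBijective (e₂.toMonoidHom.subgroupComap (K₀.map (QuotientGroup.mk' M₂)))
      ⟨fun x y hxy => Subtype.ext (e₂.injective (congrArg Subtype.val hxy)),
        fun y => ⟨⟨e₂.symm y, by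
          show e₂ (e₂.symm y) ∈ K₀.map (QuotientGroup.mk' M₂)
          rw [e₂.apply_symm_apply]; exact y.2⟩, Subtype.ext (e₂.apply_symm_apply y)⟩⟩
  have hns₀ : ¬ NSRep (G ⧸ M) := fun h => hns (nsRep_of_quo f hf G hAl.fi (K.subgroupOf G) M
    (fun a x => (hKmem _).2 (by
      have h1 := hlat.add (a * x * a⁻¹) x⁻¹
      rw [h1, hlat.conj, hlat.map_inv, add_neg_cancel])) hMdef h)
  have hns₁ : ¬ NSRep (G ⧸ θ.ker) := fun h => hns₀ (NSRep.of_surjective
    (e₂.symm.toMonoidHom.comp (QuotientGroup.mk' M₂))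
    (e₂.symm.surjective.comp (QuotientGroup.mk'_surjective M₂)) h)
  have hfr₁ : FinRepIn (G ⧸ θ.ker) ((K₀.map (QuotientGroup.mk' M₂)).comap e₂.toMonoidHom) :=
    finRepIn_of hN'.fg hN'.nvi hns₁
  refine descend hst hM hD hw hp hAl hreg θ.ker L hL (fun x => c₁ (e₂ x)) (fun g => ?_)
    hN'.lat ?_
  · show c₁ (((g : G ⧸ M)) : (G ⧸ M) ⧸ M₂) = L (c g)
    rw [hc₁, hc₀]
  intro Y _ _ _ _ _ _ hDY w' hw' E' _ _ _ p' hp' F' hB' heq' hreg' hgc'
  exact hCo n Y hDY w' hw' E' (G ⧸ θ.ker) p' hp' q F' (fun x => c₁ (e₂ x)) _ hB' heq' hreg'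
    hgc' hN' hfr₁ (fun h => hnk' (h.of_equiv e₃))


end Vale.Agent.P284.H213.G
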