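import Vale.Agent.P284.H213.T3.Grp

/-!
# P284 (helper213), TARGET G, module G0: representations with image not virtually solvable

`NSRep` passes from quotients, from subgroups of finite index (induced representations) and from central
quotients.  `FinRepIn Γ K`: every finite dimensional real representation of `Γ` has finite range on `K`.
-/

open Function

noncomputable section

namespace Vale.Agent.P284.H213.G

open Vale.Agent.P272.K Vale.Agent.P284.H894.V Vale.Agent.P284.H119.Kaz Vale.Agent.P284.H913.V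
  Vale.Agent.P284.H213.T3

/-- every finite dimensional real representation of `Γ` has finite range on the subgroup `K` -/
def FinRepIn (Γ : Type) [Group Γ] (K : Subgroup Γ) : Prop :=
  ∀ (V : Type) [AddCommGroup V] [Module ℝ V] [FiniteDimensional ℝ V] (ρ : Γ →* (V →ₗ[ℝ] V)),
    (ρ '' (K : Set Γ)).Finite

/-- the image is virtually solvable -/
def VSol {K B : Type*} [Group K] [Group B] (ρ : K →* B) : Prop :=
  ∃ H : Subgroup K, H.FiniteIndex ∧ Group.IsSolvable (H.map ρ)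

theorem nsRep_iff {K : Type*} [Group K] :
    NSRep K ↔ ∃ (d : ℕ) (ρ : K →* Matrix.GeneralLinearGroup (Fin d) ℝ), ¬ VSol ρ := by
  constructor
  · rintro ⟨d, ρ, h⟩
    exact ⟨d, ρ, fun ⟨H, hH, hs⟩ => h H hH hs⟩
  · rintro ⟨d, ρ, h⟩
    exact ⟨d, ρ, fun H hH hs => h ⟨H, hH, hs⟩⟩

/-- a surjective homomorphism between the images -/
theorem exists_surj_of_ker {K B C : Type*} [Group K] [Group B] [Group C] {ρ : K →* B} {σ : K →* C}
    (h : ∀ k, ρ k = 1 → σ k = 1) (H : Subgroup K) :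
    ∃ f : H.map ρ →* H.map σ, Surjective f := by
  have hs : Surjective (ρ.subgroupMap H) := ρ.subgroupMap_surjective H
  have hk : (ρ.subgroupMap H).ker ≤ (σ.subgroupMap H).ker := by
    intro x hx
    have h1 : ρ x = 1 := congrArg Subtype.val hx
    exact Subtype.ext (h x h1)
  refine ⟨(ρ.subgroupMap H).liftOfSurjective hs ⟨σ.subgroupMap H, hk⟩, fun y => ?_⟩
  obtain ⟨x, rfl⟩ := σ.subgroupMap_surjective H y
  exact ⟨ρ.subgroupMap H x, MonoidHom.liftOfRightInverse_comp_apply _ _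
    (rightInverse_surjInv hs) ⟨σ.subgroupMap H, hk⟩ x⟩

theorem VSol.of_ker {K B C : Type*} [Group K] [Group B] [Group C] {ρ : K →* B} {σ : K →* C}
    (h : ∀ k, ρ k = 1 → σ k = 1) (hρ : VSol ρ) : VSol σ := by
  obtain ⟨H, hH, hs⟩ := hρ
  obtain ⟨f, hf⟩ := exists_surj_of_ker h H
  exact ⟨H, hH, Group.isSolvable_of_surjective hf⟩

/-- finite dimensional representations: the image is virtually solvable if there is no `NSRep` -/
theorem vsol_of_not {K : Type*} [Group K] (h : ¬ NSRep K) {V : Type*} [AddCommGroup V] [Module ℝ V]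
    [FiniteDimensional ℝ V] (ρ : K →* (V →ₗ[ℝ] V)) : VSol ρ.toHomUnits := by
  obtain ⟨b⟩ : Nonempty (Module.Basis (Fin (Module.finrank ℝ V)) ℝ V) := ⟨Module.finBasis ℝ V⟩
  obtain ⟨e, he⟩ : ∃ e : (V →ₗ[ℝ] V) →* Matrix (Fin (Module.finrank ℝ V))
      (Fin (Module.finrank ℝ V)) ℝ, Function.Injective e :=
    ⟨((LinearMap.toMatrixAlgEquiv b : (V →ₗ[ℝ] V) ≃ₐ[ℝ] _) : (V →ₗ[ℝ] V) →* _),
      (LinearMap.toMatrixAlgEquiv b).injective⟩
  let ρ' : K →* Matrix.GeneralLinearGroup (Fin (Module.finrank ℝ V)) ℝ :=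
    (Units.map e).comp ρ.toHomUnits
  have h1 : VSol ρ' := by
    by_contra hcon
    exact h (nsRep_iff.2 ⟨_, ρ', hcon⟩)
  refine h1.of_ker fun k hk => ?_
  refine Units.ext ?_
  show ρ k = 1
  have h3 : e (ρ k) = e 1 := by
    rw [map_one]
    exact congrArg Units.val hk
  exact he h3

theorem NSRep.of_surjective {A B : Type*} [Group A] [Group B] (f : A →* B) (hf : Surjective f)
    (h : NSRep B) : NSRep A := by
  obtain ⟨d, ρ, hρ⟩ := nsRep_iff.1 h
  refine nsRep_iff.2 ⟨d, ρ.comp f, fun ⟨H, hH, hs⟩ => hρ ⟨H.map f, ?_, ?_⟩⟩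
  · refine ⟨fun h0 => ?_⟩
    have h1 := Subgroup.index_map_dvd H hf
    rw [h0] at h1
    exact hH.index_ne_zero (zero_dvd_iff.1 h1)
  · rw [Subgroup.map_map]
    exact hs

/-! ### Induced representations -/

section ind
variable {Q : Type*} [Group Q] (G : Subgroup Q) {V : Type*} [AddCommGroup V] [Module ℝ V]
  (ρ : G →* (V →ₗ[ℝ] V))

/-- the space of the induced representation -/
def IndS : Submodule ℝ (Q → V) where
  carrier := {φ | ∀ (x : Q) (h : G), φ (x * h) = ρ h⁻¹ (φ x)}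
  add_mem' := by
    intro φ ψ hφ hψ x h
    rw [Pi.add_apply, Pi.add_apply, hφ, hψ, map_add]
  zero_mem' := by
    intro x h
    simp
  smul_mem' := by
    intro a φ hφ x h
    rw [Pi.smul_apply, Pi.smul_apply, hφ, map_smul]

/-- the induced representation -/
def indR : Q →* (IndS G ρ →ₗ[ℝ] IndS G ρ) where
  toFun q :=
    { toFun := fun φ => ⟨fun x => (φ : Q → V) (q⁻¹ * x), fun x h => by
        show (φ : Q → V) (q⁻¹ * (x * h)) = _
        rw [← mul_assoc]
        exact φ.2 (q⁻¹ * x) h⟩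
      map_add' := fun _ _ => rfl
      map_smul' := fun _ _ => rfl }
  map_one' := by
    ext φ x
    show (φ : Q → V) (1⁻¹ * x) = (φ : Q → V) x
    rw [inv_one, one_mul]
  map_mul' a b := by
    ext φ x
    show (φ : Q → V) ((a * b)⁻¹ * x) = (φ : Q → V) (b⁻¹ * (a⁻¹ * x))
    rw [mul_inv_rev, mul_assoc]

variable {G}

theorem indS_out (φ : IndS G ρ) (x : Q) :
    (φ : Q → V) x = ρ ⟨(x : Q ⧸ G).out⁻¹ * x, by
      rw [← QuotientGroup.eq]; exact QuotientGroup.out_eq' _⟩⁻¹ ((φ : Q → V) (x : Q ⧸ G).out) := by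
  have h := φ.2 (x : Q ⧸ G).out ⟨(x : Q ⧸ G).out⁻¹ * x, by
      rw [← QuotientGroup.eq]; exact QuotientGroup.out_eq' _⟩
  rw [← h]
  show _ = (φ : Q → V) ((x : Q ⧸ G).out * ((x : Q ⧸ G).out⁻¹ * x))
  rw [mul_inv_cancel_left]

theorem finiteDim_indS [FiniteDimensional ℝ V] [G.FiniteIndex] :
    FiniteDimensional ℝ (IndS G ρ) := by
  have : Finite (Q ⧸ G) := G.finite_quotient_of_finiteIndex
  let T : IndS G ρ →ₗ[ℝ] (Q ⧸ G → V) :=
    { toFun := fun φ a => (φ : Q → V) a.out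
      map_add' := fun _ _ => rfl
      map_smul' := fun _ _ => rfl }
  refine FiniteDimensional.of_injective T ?_
  intro φ ψ h
  refine Subtype.ext (funext fun x => ?_)
  rw [indS_out ρ φ x, indS_out ρ ψ x]
  have h1 : (φ : Q → V) (x : Q ⧸ G).out = (ψ : Q → V) (x : Q ⧸ G).out :=
    congrFun h (x : Q ⧸ G)
  rw [h1]

/-- extension by zero -/
theorem exists_indS (v : V) : ∃ φ : IndS G ρ, (φ : Q → V) 1 = v := by
  classical
  refine ⟨⟨fun x => if hx : x ∈ G then ρ ⟨x, hx⟩⁻¹ v else 0, fun x h => ?_⟩, ?_⟩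
  · show (if hx : x * (h : Q) ∈ G then ρ ⟨x * h, hx⟩⁻¹ v else 0) =
      ρ h⁻¹ (if hx : x ∈ G then ρ ⟨x, hx⟩⁻¹ v else 0)
    by_cases hx : x ∈ G
    · have hx' : x * (h : Q) ∈ G := G.mul_mem hx h.2
      rw [dif_pos hx, dif_pos hx']
      have h1 : (⟨x * h, hx'⟩ : G)⁻¹ = h⁻¹ * (⟨x, hx⟩ : G)⁻¹ := by
        rw [← mul_inv_rev]
        rfl
      rw [h1, map_mul]
      rfl
    · have hx' : x * (h : Q) ∉ G := fun h' => hx (by
        have := G.mul_mem h' (G.inv_mem h.2)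
        rwa [mul_inv_cancel_right] at this)
      rw [dif_neg hx, dif_neg hx', map_zero]
  · show (if hx : (1 : Q) ∈ G then ρ ⟨1, hx⟩⁻¹ v else 0) = v
    rw [dif_pos G.one_mem]
    have h1 : (⟨1, G.one_mem⟩ : G)⁻¹ = 1 := by
      rw [inv_eq_one]
      rfl
    rw [h1, map_one]
    rfl

/-- equality of induced operators implies equality of the operators -/
theorem ind_inj {g g' : G} (h : indR G ρ g = indR G ρ g') : ρ g = ρ g' := by
  ext v
  obtain ⟨φ, hφ⟩ := exists_indS ρ v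
  have key : ∀ g : G, ((indR G ρ g φ : IndS G ρ) : Q → V) 1 = ρ g v := by
    intro g
    show (φ : Q → V) ((g : Q)⁻¹ * 1) = _
    have h1 := φ.2 1 g⁻¹
    rw [one_mul, inv_inv, hφ] at h1
    rw [mul_one, ← h1]
    rfl
  rw [← key g, ← key g', h]

end ind

theorem NSRep.of_finiteIndex {Q : Type*} [Group Q] (G : Subgroup Q) (hG : G.FiniteIndex)
    (h : NSRep G) : NSRep Q := by
  by_contra hcon
  obtain ⟨d, ρ, hρ⟩ := nsRep_iff.1 h
  apply hρ
  let ρ' : G →* ((Fin d → ℝ) →ₗ[ℝ] (Fin d → ℝ)) :=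
    (Matrix.toLinAlgEquiv' : Matrix (Fin d) (Fin d) ℝ ≃ₐ[ℝ] _).toAlgHom.toMonoidHom.comp
      ((Units.coeHom _).comp ρ)
  have hfd : FiniteDimensional ℝ (IndS G ρ') := finiteDim_indS ρ'
  obtain ⟨H, hH, hs⟩ := vsol_of_not hcon (indR G ρ')
  have h1 : VSol ((indR G ρ').toHomUnits.comp G.subtype) := by
    refine ⟨H.subgroupOf G, inferInstance, ?_⟩
    have h2 : ((H.subgroupOf G).map ((indR G ρ').toHomUnits.comp G.subtype)) ≤
        H.map (indR G ρ').toHomUnits := by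
      rw [← Subgroup.map_map]
      refine Subgroup.map_mono ?_
      rintro _ ⟨x, hx, rfl⟩
      exact hx
    exact Group.isSolvable_of_isSolvable_injective (Subgroup.inclusion_injective h2)
  refine h1.of_ker fun g hg => ?_
  have h2 : indR G ρ' g = indR G ρ' (1 : G) := by
    have h3 := congrArg Units.val hg
    have h4 : indR G ρ' g = 1 := h3
    rw [h4]
    exact (map_one (indR G ρ')).symm
  have h3 := ind_inj ρ' h2
  rw [map_one] at h3
  refine Units.ext ?_
  have h4 : Matrix.toLinAlgEquiv' (ρ g : Matrix (Fin d) (Fin d) ℝ) =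
      Matrix.toLinAlgEquiv' (1 : Matrix (Fin d) (Fin d) ℝ) := by
    rw [map_one]
    exact h3
  exact Matrix.toLinAlgEquiv'.injective h4

theorem FinRepIn.of_finiteIndex {Γ : Type} [Group Γ] {K : Subgroup Γ} (h : FinRepIn Γ K)
    (G : Subgroup Γ) (hG : G.FiniteIndex) : FinRepIn G (K.subgroupOf G) := by
  classical
  intro V _ _ _ ρ
  have hfd : FiniteDimensional ℝ (IndS G ρ) := finiteDim_indS ρ
  have h1 := h (IndS G ρ) (indR G ρ)
  -- choose preimages
  have h2 : (ρ '' (K.subgroupOf G : Set G)) ⊆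
      (fun T => if hT : ∃ g : G, indR G ρ g = T then ρ hT.choose else 0) ''
        (indR G ρ '' (K : Set Γ)) := by
    rintro _ ⟨g, hg, rfl⟩
    refine ⟨indR G ρ g, ⟨g, hg, rfl⟩, ?_⟩
    have hT : ∃ g' : G, indR G ρ g' = indR G ρ g := ⟨g, rfl⟩
    show (if hT : ∃ g' : G, indR G ρ g' = indR G ρ g then ρ hT.choose else 0) = ρ g
    rw [dif_pos hT]
    exact ind_inj ρ hT.choose_spec
  exact (h1.image _).subset h2

theorem FinRepIn.of_quotient {Γ B : Type} [Group Γ] [Group B] {K : Subgroup Γ} (h : FinRepIn Γ K)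
    (f : Γ →* B) : FinRepIn B (K.map f) := by
  intro V _ _ _ ρ
  refine (h V (ρ.comp f)).subset ?_
  rintro _ ⟨_, ⟨k, hk, rfl⟩, rfl⟩
  exact ⟨k, hk, rfl⟩

theorem FinRepIn.congr {A B : Type} [Group A] [Group B] (e : B ≃* A) {K : Subgroup A}
    (h : FinRepIn A K) : FinRepIn B (K.comap e.toMonoidHom) := by
  intro V _ _ _ ρ
  refine (h V (ρ.comp e.symm.toMonoidHom)).subset ?_
  rintro _ ⟨b, hb, rfl⟩
  refine ⟨e b, hb, ?_⟩
  show ρ (e.symm (e b)) = ρ b
  rw [e.symm_apply_apply]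

theorem FinRepIn.mono {Γ : Type} [Group Γ] {K K' : Subgroup Γ} (h : FinRepIn Γ K) (hK : K' ≤ K) :
    FinRepIn Γ K' := fun V _ _ _ ρ => (h V ρ).subset (Set.image_mono hK)

/-- `FinRep K` implies `FinRepIn Γ K` -/
theorem finRepIn_of_finRep {Γ : Type} [Group Γ] {K : Subgroup Γ} (h : H573.DK.FinRep K) :
    FinRepIn Γ K := by
  intro V _ _ _ ρ
  refine (h V (ρ.comp K.subtype)).subset ?_
  rintro _ ⟨k, hk, rfl⟩
  exact ⟨⟨k, hk⟩, rfl⟩

/-- no `NSRep` of `Γ`, `K` finitely generated and not virtually indicable ==> `FinRepIn Γ K` -/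
theorem finRepIn_of {Γ : Type} [Group Γ] {K : Subgroup Γ} (hfg : Group.FG K)
    (hnv : ¬ VirtIndicable K) (h : ¬ NSRep Γ) : FinRepIn Γ K := by
  intro V _ _ _ ρ
  by_contra hinf
  obtain ⟨H, hH, hs⟩ := vsol_of_not h ρ
  let σ : K →* (V →ₗ[ℝ] V)ˣ := ρ.toHomUnits.comp K.subtype
  let H' : Subgroup K := H.subgroupOf K
  have hH' : H'.FiniteIndex := inferInstance
  have hle : H'.map σ ≤ H.map ρ.toHomUnits := by
    rw [← Subgroup.map_map]
    refine Subgroup.map_mono ?_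
    rintro _ ⟨x, hx, rfl⟩
    exact hx
  have hsol : Group.IsSolvable (H'.map σ) :=
    Group.isSolvable_of_isSolvable_injective (Subgroup.inclusion_injective hle)
  obtain ⟨d, hd⟩ := hsol
  have hHfg : Group.FG H' := Subgroup.fg_of_index_ne_zero _
  have hsurj : Function.Surjective (σ.subgroupMap H') := σ.subgroupMap_surjective H'
  have hSfg : Group.FG (H'.map σ) := Group.fg_of_surjective hsurj
  have hSi : Infinite (H'.map σ) := by
    by_contra hcon
    have h2 : Finite (H'.map σ) := not_infinite_iff_finite.1 hcon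
    have h3 : (Set.range σ).Finite := finite_range_of σ H' (Set.toFinite _)
    apply hinf
    refine (h3.image (fun u : (V →ₗ[ℝ] V)ˣ => (u : V →ₗ[ℝ] V))).subset ?_
    rintro _ ⟨k, hk, rfl⟩
    exact ⟨σ ⟨k, hk⟩, ⟨⟨k, hk⟩, rfl⟩, rfl⟩
  exact hnv (VirtIndicable.of_subgroup H' (VirtIndicable.of_surjective _ hsurj
    (virtIndicable_of_derived d _ hSfg hSi hd)))

/-! ### Central quotients -/

section conj
variable {A : Type*} [Group A] {R : Type*} [Ring R] [Algebra ℝ R] (ρ : A →* Rˣ)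

/-- the span of the image -/
def spanA : Submodule ℝ R := Submodule.span ℝ (Set.range fun a => ((ρ a : Rˣ) : R))

theorem mem_spanA (a : A) : ((ρ a : Rˣ) : R) ∈ spanA ρ := Submodule.subset_span ⟨a, rfl⟩

theorem conj_mem (a : A) {T : R} (hT : T ∈ spanA ρ) :
    ((ρ a : Rˣ) : R) * T * ((ρ a)⁻¹ : Rˣ) ∈ spanA ρ := by
  induction hT using Submodule.span_induction with
  | mem x hx =>
    obtain ⟨b, rfl⟩ := hx
    have h1 : ((ρ a : Rˣ) : R) * ((ρ b : Rˣ) : R) * ((ρ a)⁻¹ : Rˣ) =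
        ((ρ (a * b * a⁻¹) : Rˣ) : R) := by
      rw [map_mul, map_mul, map_inv]
      rfl
    exact h1 ▸ mem_spanA ρ _
  | zero => simp
  | add x y _ _ hx hy =>
    rw [mul_add, add_mul]
    exact (spanA ρ).add_mem hx hy
  | smul r x _ hx =>
    rw [mul_smul_comm, smul_mul_assoc]
    exact (spanA ρ).smul_mem r hx

/-- conjugation by `ρ a` on the span of the image -/
def conjL (a : A) : spanA ρ →ₗ[ℝ] spanA ρ where
  toFun T := ⟨((ρ a : Rˣ) : R) * (T : R) * ((ρ a)⁻¹ : Rˣ), conj_mem ρ a T.2⟩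
  map_add' S T := Subtype.ext (by
    show ((ρ a : Rˣ) : R) * ((S : R) + T) * ((ρ a)⁻¹ : Rˣ) = _
    rw [mul_add, add_mul]
    rfl)
  map_smul' r T := Subtype.ext (by
    show ((ρ a : Rˣ) : R) * (r • (T : R)) * ((ρ a)⁻¹ : Rˣ) = _
    rw [mul_smul_comm, smul_mul_assoc]
    rfl)

theorem conjL_coe (a : A) (T : spanA ρ) :
    ((conjL ρ a T : spanA ρ) : R) = ((ρ a : Rˣ) : R) * (T : R) * ((ρ a)⁻¹ : Rˣ) := rfl

/-- the representation by conjugation -/
def conjR : A →* (spanA ρ →ₗ[ℝ] spanA ρ) where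
  toFun := conjL ρ
  map_one' := by
    ext T
    rw [conjL_coe, map_one, inv_one, Units.val_one, one_mul, mul_one]
    rfl
  map_mul' a b := by
    ext T
    rw [conjL_coe, map_mul, mul_inv_rev, Units.val_mul, Units.val_mul]
    show _ = ((conjL ρ a (conjL ρ b T) : spanA ρ) : R)
    rw [conjL_coe, conjL_coe]
    simp only [mul_assoc]

theorem conjR_eq_one {a : A} (ha : ∀ x, ρ a * ρ x = ρ x * ρ a) : conjR ρ a = 1 := by
  ext T
  show ((ρ a : Rˣ) : R) * (T : R) * ((ρ a)⁻¹ : Rˣ) = T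
  have h1 : ∀ T ∈ spanA ρ, ((ρ a : Rˣ) : R) * T = T * ((ρ a : Rˣ) : R) := by
    intro T hT
    induction hT using Submodule.span_induction with
    | mem x hx =>
      obtain ⟨b, rfl⟩ := hx
      exact congrArg Units.val (ha b)
    | zero => simp
    | add x y _ _ hx hy => rw [mul_add, add_mul, hx, hy]
    | smul r x _ hx => rw [mul_smul_comm, smul_mul_assoc, hx]
  rw [h1 T T.2, mul_assoc, Units.mul_inv, mul_one]

theorem comm_of_conjR {a : A} (ha : conjR ρ a = 1) (x : A) : ρ a * ρ x = ρ x * ρ a := by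
  have h1 : ((conjR ρ a ⟨(ρ x : Rˣ), mem_spanA ρ x⟩ : spanA ρ) : R) = ((ρ x : Rˣ) : R) := by
    rw [ha]
    rfl
  have h2 : ((ρ a : Rˣ) : R) * ((ρ x : Rˣ) : R) * ((ρ a)⁻¹ : Rˣ) = ((ρ x : Rˣ) : R) := h1
  refine Units.ext ?_
  rw [Units.val_mul, Units.val_mul]
  calc ((ρ a : Rˣ) : R) * ((ρ x : Rˣ) : R)
      = ((ρ a : Rˣ) : R) * ((ρ x : Rˣ) : R) * (((ρ a)⁻¹ : Rˣ) * ((ρ a : Rˣ) : R)) := by
        rw [Units.inv_mul, mul_one]
    _ = (((ρ a : Rˣ) : R) * ((ρ x : Rˣ) : R) * ((ρ a)⁻¹ : Rˣ)) * ((ρ a : Rˣ) : R) := by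
        simp only [mul_assoc]
    _ = ((ρ x : Rˣ) : R) * ((ρ a : Rˣ) : R) := by rw [h2]

end conj

/-- the image is virtually solvable if the image in the representation by conjugation is -/
theorem vsol_of_conj {A : Type*} [Group A] {R : Type*} [Ring R] [Algebra ℝ R] (ρ : A →* Rˣ)
    (h : VSol (conjR ρ).toHomUnits) : VSol ρ := by
  obtain ⟨H, hH, hs⟩ := h
  refine ⟨H, hH, ?_⟩
  -- the homomorphism from `ρ(H)` to the image of the conjugation
  have hsj : Surjective (ρ.subgroupMap H) := ρ.subgroupMap_surjective H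
  have hk : (ρ.subgroupMap H).ker ≤ ((conjR ρ).toHomUnits.subgroupMap H).ker := by
    intro x hx
    have h1 : ρ x = 1 := congrArg Subtype.val hx
    refine Subtype.ext (Units.ext ?_)
    show conjR ρ x = 1
    refine conjR_eq_one ρ fun y => ?_
    rw [h1, one_mul, mul_one]
  let g : H.map ρ →* H.map (conjR ρ).toHomUnits :=
    (ρ.subgroupMap H).liftOfSurjective hsj ⟨(conjR ρ).toHomUnits.subgroupMap H, hk⟩
  have hg : ∀ x, g (ρ.subgroupMap H x) = (conjR ρ).toHomUnits.subgroupMap H x := fun x =>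
    MonoidHom.liftOfRightInverse_comp_apply _ _ (rightInverse_surjInv hsj)
      ⟨(conjR ρ).toHomUnits.subgroupMap H, hk⟩ x
  have hcomm : ∀ a b : g.ker, a * b = b * a := by
    rintro ⟨a, ha⟩ ⟨b, hb⟩
    obtain ⟨x, rfl⟩ := hsj a
    obtain ⟨y, rfl⟩ := hsj b
    refine Subtype.ext (Subtype.ext ?_)
    show ρ x * ρ y = ρ y * ρ x
    have h1 : (conjR ρ).toHomUnits.subgroupMap H x = 1 := by
      rw [← hg]
      exact ha
    have h2 : conjR ρ x = 1 := congrArg (fun u => ((u : (spanA ρ →ₗ[ℝ] spanA ρ)ˣ) :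
      spanA ρ →ₗ[ℝ] spanA ρ)) (congrArg Subtype.val h1)
    exact comm_of_conjR ρ h2 y
  have hsk : Group.IsSolvable g.ker := Group.isSolvable_of_comm hcomm
  exact Group.isSolvable_of_ker_le_range g.ker.subtype g (by rw [Subgroup.range_subtype])

theorem vsol_comap {A B C : Type*} [Group A] [Group B] [Group C] (f : A →* B) (hf : Surjective f)
    (τ : A →* C) (σ : B →* C) (h : ∀ a, σ (f a) = τ a) (hσ : VSol σ) : VSol τ := by
  obtain ⟨H, hH, hs⟩ := hσ
  refine ⟨H.comap f, ?_, ?_⟩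
  · rw [Subgroup.finiteIndex_iff, Subgroup.index_comap_of_surjective H hf]
    exact hH.index_ne_zero
  · have h1 : (H.comap f).map τ = H.map σ := by
      ext u
      constructor
      · rintro ⟨a, ha, rfl⟩
        exact ⟨f a, ha, h a⟩
      · rintro ⟨b, hb, rfl⟩
        obtain ⟨a, rfl⟩ := hf b
        exact ⟨a, hb, (h a).symm⟩
    rw [h1]
    exact hs

theorem exists_lift_of_central {A B : Type*} [Group A] [Group B] {M : Type*} [Monoid M]
    (τ : A →* M) (f : A →* B) (hf : Surjective f) (hk : ∀ a, f a = 1 → τ a = 1) :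
    ∃ σ : B →* M, ∀ a, σ (f a) = τ a := by
  have h1 : ∀ a b, f a = f b → τ a = τ b := by
    intro a b hab
    have h2 : τ (a * b⁻¹) = 1 := hk _ (by rw [map_mul, map_inv, hab, mul_inv_cancel])
    calc τ a = τ (a * b⁻¹ * b) := by rw [inv_mul_cancel_right]
      _ = τ b := by rw [map_mul, h2, one_mul]
  have hs : ∀ b, f (surjInv hf b) = b := surjInv_eq hf
  refine ⟨{ toFun := fun b => τ (surjInv hf b), map_one' := ?_, map_mul' := ?_ }, ?_⟩
  · rw [h1 _ 1 (by rw [hs, map_one]), map_one]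
  · intro a b
    rw [← map_mul]
    exact h1 _ _ (by rw [hs, map_mul, hs, hs])
  · intro a
    exact h1 _ _ (hs _)

theorem vsol_of_central {A B : Type*} [Group A] [Group B] {R : Type*} [Ring R] [Algebra ℝ R]
    [FiniteDimensional ℝ R] (ρ : A →* Rˣ) (f : A →* B) (hf : Surjective f)
    (hc : ∀ a, f a = 1 → ∀ x, a * x = x * a) (h : ¬ NSRep B) : VSol ρ := by
  refine vsol_of_conj ρ ?_
  have hker : ∀ a, f a = 1 → conjR ρ a = 1 := by
    intro a ha
    refine conjR_eq_one ρ fun x => ?_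
    rw [← map_mul, ← map_mul, hc a ha x]
  obtain ⟨σ, hσ⟩ := exists_lift_of_central (conjR ρ) f hf hker
  exact vsol_comap f hf _ σ.toHomUnits (fun a => Units.ext (hσ a)) (vsol_of_not h σ)

/-- `NSRep` passes to central quotients -/
theorem NSRep.of_central {A B : Type*} [Group A] [Group B] (f : A →* B) (hf : Surjective f)
    (hc : ∀ a, f a = 1 → ∀ x, a * x = x * a) (h : NSRep A) : NSRep B := by
  by_contra hcon
  obtain ⟨d, ρ, hρ⟩ := nsRep_iff.1 h
  exact hρ (vsol_of_central (R := Matrix (Fin d) (Fin d) ℝ) ρ f hf hc hcon)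

end Vale.Agent.P284.H213.G
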