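import Vale.Agent.P284.H213.G.Rep
import Vale.Agent.P284.H213.K.S

/-!
# P284 (helper213), TARGET G: statements

The representations are those of the group `Γ`, not of the kernel `K`: `FinRepIn Γ K` in place of
`FinRep K`, `NSRep Q` in place of `NSRep (ker χ)`.  All statements are for compact Kähler manifolds
(no polarisation); the projective case is the class `K.pjC D`.
-/

open scoped Manifold ContDiff Topology Pointwise ComplexConjugate ComplexOrder
open Filter Set Metric MeasureTheory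

noncomputable section

namespace Vale.Agent.P284.H213.G

open Vale.Agent.P272.K Vale.Agent.P284.H248 Vale.Agent.P284.H894 Vale.Agent.P284.H894.G
  Vale.Agent.P284.H894.V Vale.Agent.P284.H894.W Vale.Agent.P284.H894.F Vale.Agent.P284.H998
  Vale.Agent.P284.H213.Grp Vale.Agent.P284.H213.Q Vale.Agent.P284.H119.Kaz
  Vale.Agent.P284.H213.T3 Vale.Agent.P284.H213.K

/-- **CORE**, kernels without property (T), normalised data, representations of `Γ` -/
def CoreTGK (D : Cls) : Prop :=
  ∀ (n : ℕ) (X : Type) [TopologicalSpace X] [T2Space X] [CompactSpace X] [ConnectedSpace X]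
    [ChartedSpace (Cm n) X] [IsManifold 𝓘(ℂ, Cm n) ω X]
    (_ : D n X) (w : Chart n X → Cm n → Matrix (Fin n) (Fin n) ℂ), IsKahler w →
    ∀ (E Γ : Type) [TopologicalSpace E] [ConnectedSpace E] [Group Γ] [MulAction Γ E]
      (p : E → X), IsGalois Γ p →
    ∀ (q : ℕ) (F : E → Cm q) (c : Γ → Cm q) (K : Subgroup Γ), (∃ B, HolB p w F B) →
      (∀ g y, F (g • y) = F y + c g) → (∃ y, Reg (n := n) p F y) → GenConn (n := n) p F →
      NPkg Γ q c K → FinRepIn Γ K → ¬ Kazhdan K → False

/-- **CORE**, kernels without property (T), strong form, representations of `Γ` -/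
def CoreTGPK (D : Cls) : Prop :=
  ∀ (n : ℕ) (X : Type) [TopologicalSpace X] [T2Space X] [CompactSpace X] [ConnectedSpace X]
    [ChartedSpace (Cm n) X] [IsManifold 𝓘(ℂ, Cm n) ω X]
    (_ : D n X) (w : Chart n X → Cm n → Matrix (Fin n) (Fin n) ℂ), IsKahler w →
    ∀ (E Γ : Type) [TopologicalSpace E] [ConnectedSpace E] [Group Γ] [MulAction Γ E]
      (p : E → X), IsGalois Γ p →
    ∀ (q : ℕ) (F : E → Cm q) (c : Γ → Cm q) (K : Subgroup Γ), (∃ B, HolB p w F B) →
      (∀ g y, F (g • y) = F y + c g) → (∃ y, Reg (n := n) p F y) → GenConn (n := n) p F →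
      LatChar Γ q c → (∀ g, g ∈ K ↔ c g = 0) → Group.FG K → ¬ VirtIndicable K →
      FinRepIn Γ K → ¬ Kazhdan K → False

/-- a subgroup `G` of finite index of `Q` maps onto `ℤ^m`, `m ≤ r`, with finitely generated kernel `K`,
and `K` is finite or has an infinite quotient `K/N`, `N` normal in `G`, with property (T) -/
def T3N0 (Q : Type) [Group Q] (r : ℕ) : Prop :=
  ∃ (G : Subgroup Q) (m : ℕ) (χ : G →* Multiplicative (Fin m → ℤ)), G.FiniteIndex ∧ m ≤ r ∧
    Function.Surjective χ ∧ Group.FG χ.ker ∧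
    (Finite χ.ker ∨
      ∃ (N : Subgroup G) (_ : N.Normal), N ≤ χ.ker ∧ Infinite (χ.ker.map (QuotientGroup.mk' N)) ∧
        Kazhdan (χ.ker.map (QuotientGroup.mk' N)))

/-- a subgroup `G` of finite index of `Q` maps onto `ℤ^m`, `m ≤ r`, with finitely generated kernel with
property (T) -/
def T3C0 (Q : Type) [Group Q] (r : ℕ) : Prop :=
  ∃ (G : Subgroup Q) (m : ℕ) (χ : G →* Multiplicative (Fin m → ℤ)), G.FiniteIndex ∧ m ≤ r ∧
    Function.Surjective χ ∧ Group.FG χ.ker ∧ Kazhdan χ.ker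

/-- T3, representations of the quotient `Q` -/
def PNG (Q : Type) [Group Q] (n : ℕ) : Prop := NSRep Q ∨ T3N0 Q (2 * n)

/-- T3⁺, representations of the quotient `Q` -/
def PTG (Q : Type) [Group Q] (n : ℕ) : Prop := NSRep Q ∨ T3C0 Q (2 * n)

/-- reduction of `T3N` to `T3N0` -/
theorem T3N0.of_T3N {Q : Type} [Group Q] {r : ℕ} (h : T3N Q r)
    (hns : ∀ (G : Subgroup Q) (K : Subgroup G), G.FiniteIndex → ¬ NSRep K) : T3N0 Q r := by
  obtain ⟨G, m, χ, hG, hm, hχ, hfg, h⟩ := h
  refine ⟨G, m, χ, hG, hm, hχ, hfg, ?_⟩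
  rcases h with h | h | h
  · exact Or.inl h
  · exact Or.inr h
  · exact (hns G χ.ker hG h).elim

end Vale.Agent.P284.H213.G
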